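import Crest.Agent.X212.Yc4.Gen
import Crest.Agent.X212.Sb84.Defs

/-!
# Row 212, SB-YC (helper4): the leaf
-/

namespace Crest.Agent.X212.Yc4
open G75

/-- **LEAF YC** -/
theorem yc {κ lam : Type} [Fintype κ] [Fintype lam] [DecidableEq lam] (Lm : LM κ lam) :
    Sb84.YcStmt Lm := fun y hy =>
  (exists_cs y).imp fun _ k S t R c _ ht h e => by
    cases e
    · exact ⟨(k S t R c ht).2, (qhs hy ht (.inr rfl)).2, (h_b hy ht).1, a_dj hy ht h.ok⟩
    · exact ⟨(k S t R c ht).1, (qhs hy ht (.inr rfl)).1, (h_b hy ht).2, a_dj hy ht h.ok⟩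

end Crest.Agent.X212.Yc4
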