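import Crest.Agent.X212.Loc8.Wld
import Crest.Agent.X212.G75.Tm

/-!
# Row 212, SB-YC (helper4): the cross-sections of the windows
-/

set_option autoImplicit false
set_option linter.unusedSectionVars false
noncomputable section
open scoped Manifold ContDiff Topology
open MeasureTheory Set Function Filter
open Crest.Agent.R208.F (Ext)

namespace Crest.Agent.X212.Yc4
open An M G75 Int54 Qab60
open Met55 (atx)
open Dr59 (mf HZ dM)
open Loc8 (YC)

variable {κ lam : Type} [Fintype κ] [Fintype lam] [DecidableEq lam]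

section cs
variable {Y Y' : Mf 3} {G : Fr Y.I Y.M κ} {G' : Fr Y'.I Y'.M κ} {c : ℝ}

theorem cs_any [ConnectedSpace Y.M] {o o' : Y.M → Ext Y.E} (h : CS G o c) (ho : Ori Y.I o)
    (ho' : Ori Y.I o') : CS G o' c := fun a ha => by
  rcases ho.sameOn_or ho' isPreconnected_univ with k | k
  · exact integ_congr_ori ho ho' k _ ▸ h a ha
  · have := h a ha
    rwa [integ_congr_ori ho ho'.neg k, integ_neg_ori, abs_neg] at this

theorem cs_tr (g : Y.M ≃ₘ^∞⟮Y.I, Y'.I⟯ Y'.M) (hv : G.IsVol) (hv' : G'.IsVol)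
    (hg : ∀ k y, mf Y.I Y'.I g y (atx G.e y k) = atx G'.e (g y) k) {o : Y'.M → Ext Y'.E}
    (ho : Ori Y'.I o) (h : CS G (Dr59.pm Y.I Y'.I g o) c) : CS G' o c := fun a ha => by
  have d : Module.finrank ℝ Y'.E = Module.finrank ℝ Y.E := Y'.dim.trans Y.dim.symm
  have o' := ho.pm g.isLocalDiffeomorph
  have m : G.μ.map g = G'.μ := by
    have := map_vol d hv' hv (f := g) MeasurableSet.univ
      (fun w _ => g.mdifferentiable (by simp) w) g.injective.injOn fun y _ => by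
        rw [show (fun a => mf Y.I Y'.I g y (fv G.e y a)) = fv G'.e (g y) from funext fun k => hg k y]
        exact fun _ _ => rfl
    rwa [Measure.restrict_univ, image_univ_of_surjective (f := g) g.surjective,
      Measure.restrict_univ] at this
  have := h _ (ha.pm g.contMDiff)
  rw [ha.d_pm g.contMDiff, ← Dr59.pm_mul,
    ← integ_bij d ho o' g.contMDiff g.bijective (o'.same _)] at this
  refine this.trans_eq (congrArg (c * ·) ?_)
  rw [← m, MeasurableEmbedding.integral_map (f := g) g.toHomeomorph.measurableEmbedding]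
  refine integral_congr_ae (.of_forall fun y => ?_)
  simp only [norm_c2_eq, Dr59.pm_apply, e2_pb]
  exact Finset.sum_congr rfl fun i _ => Finset.sum_congr rfl fun j _ =>
    congrArg (· ^ 2) (congrArg₂ (Num57.e2 _) (hg i y) (hg j y))

end cs

section mid
variable {X X' : Mf 4} {A A' A₀ : Type} [Fintype A] [Fintype A'] [Fintype A₀] {M : Mark X A κ}
  {M' : Mark X' A' κ} (I : MId M M' A₀) {cs cs' : ℝ}

theorem yc_mono {a : A} (h : YC M a cs) (e : cs ≤ cs') : YC M a cs' :=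
  let ⟨h0, o, h1, h2, h3⟩ := h
  ⟨h0.trans e, o, h1, h2, fun b hb => (h3 b hb).trans
    (mul_le_mul_of_nonneg_right e (integral_nonneg fun _ => sq_nonneg _))⟩

theorem yc_tr {x : A₀} {a : A} {a' : A'} (e : I.f x = a) (e' : I.f' x = a') (h : YC M a cs) :
    YC M' a' cs := by
  subst e e'
  obtain ⟨h0, o, h1, -, h3⟩ := h
  obtain ⟨o', k1, k2⟩ := exists_cy (M'.gY _) (Mark.ori_oC (M := M') (I.f' x))
  exact ⟨h0, o', k1, k2, cs_tr (I.g x) (M.gvol _) (M'.gvol _) (I.gY x) k1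
    (cs_any h3 h1 (k1.pm (I.g x).isLocalDiffeomorph))⟩

theorem hz_tr {x : A₀} {a : A} {a' : A'} (e : I.f x = a) (e' : I.f' x = a') {k : ℕ}
    (h : HZ (M.bn a).Y.I k (univ : Set (M.bn a).Y.M)) :
    HZ (M'.bn a').Y.I k (univ : Set (M'.bn a').Y.M) := by
  subst e e'
  exact image_univ_of_surjective (I.g x).surjective ▸
    (Dr59.hz_oe (I.g x).isLocalDiffeomorph (I.g x).injective isOpen_univ).2 h

theorem band_tr {x y : A₀} {a b : A} {a' b' : A'} (e : I.f x = a) (e' : I.f' x = a') (k : I.f y = b)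
    (k' : I.f' y = b') {s : Bool} (h : (M.sys.w a).band ⊆ (M.sys.w b).sd s) :
    (M'.sys.w a').band ⊆ (M'.sys.w b').sd s := by
  subst e e' k k'
  rintro _ ⟨⟨y, t⟩, rfl⟩
  obtain ⟨y, rfl⟩ := (I.g x).surjective y
  exact I.jj x (y, t) ▸ (I.sd _ s _ (I.sub x ⟨_, rfl⟩)).2 (h ⟨_, rfl⟩)

end mid

/-- nesting, without disjointness of the bands -/
theorem nest {X : Type} [TopologicalSpace X] [PreconnectedSpace X] {w w' : Wall X} {b b' : Bool}
    (h1 : w'.band ⊆ w.sd b) (h2 : w.band ⊆ w'.sd b') : w.sd (!b) ∪ w.band ⊆ w'.sd b' := by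
  obtain ⟨x, hx⟩ := w.ne b
  refine w'.subset_sd (w.conn_ext _) (disjoint_left.2 ?_) (.inr hx.1) (h2 hx.1)
  rintro y (hy | hy) hc
  · exact w.not_mem_sd (h1 (w'.core_subset hc)) hy
  · exact hc _ (h2 hy)

variable {Lm : LM κ lam} {y : G75.YD κ lam} {S : Scene Lm} {t : TD y S} {R : ℕ} {c : Cn S.L S.A}
  (hy : y.OK) (ht : t.OK R c)
include hy ht

theorem a_h : (S.M.sys.w t.a).band ⊆ (S.M.sys.w t.h).sd false ∧
    (S.M.sys.w t.h).band ⊆ (S.M.sys.w t.a).sd true :=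
  have e := congrFun ht.hf0.1
  have e' := congrFun ht.hf0.2
  ⟨band_tr _ (e 0) (e' 0) (e 1) (e' 1) hy.rev.1, band_tr _ (e 1) (e' 1) (e 0) (e' 0) hy.ah.2⟩

theorem h_s : (S.M.sys.w t.h).band ⊆ (S.M.sys.w t.s).sd false ∧
    (S.M.sys.w t.s).band ⊆ (S.M.sys.w t.h).sd true :=
  have e := congrFun ht.hf0.1
  have e' := congrFun ht.hf0.2
  ⟨band_tr _ (e 1) (e' 1) (e 2) (e' 2) hy.rev.2.1, band_tr _ (e 2) (e' 2) (e 1) (e' 1) hy.hs.2⟩

theorem h_b : (S.M.sys.w t.h).band ⊆ (S.M.sys.w t.b).sd false ∧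
    (S.M.sys.w t.b).band ⊆ (S.M.sys.w t.h).sd true :=
  have := S.M.con
  have ⟨h1, h2⟩ := h_s hy ht
  ⟨fun _ k => nest ht.ord.1 ht.ord.2 (.inl (h1 k)), fun _ k => nest h1 h2 (.inl (ht.ord.1 k))⟩

theorem a_left : hf S.M t.a false ⊆ (S.M.sys.w t.h).sd false :=
  have := S.M.con
  nest (a_h hy ht).2 (a_h hy ht).1

theorem a_dj (hS : S.OK) : Disjoint (hf S.M t.a false) (hf S.M t.h true) := by
  obtain ⟨h1, h2⟩ := a_h hy ht
  have ne : t.h ≠ t.a := fun e => let ⟨z, hz⟩ := (S.M.sys.w t.a).ne false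
    (S.M.sys.w t.a).not_mem_sd hz.2 (h2 (e ▸ hz.1))
  refine disjoint_left.2 fun x hx k => k.elim ((S.M.sys.w t.h).not_mem_sd (a_left hy ht hx)) fun k => ?_
  exact hx.elim ((S.M.sys.w t.a).not_mem_sd (h2 k))
    (disjoint_left.1 (hS.fzc ht.fz.2.1 ht.fz.1 ne) k)

theorem qhs {k : ℕ} (hk : k ∈ ({1, 2} : Set ℕ)) :
    HZ (S.M.bn t.h).Y.I k (univ : Set (S.M.bn t.h).Y.M) ∧
      HZ (S.M.bn t.b).Y.I k (univ : Set (S.M.bn t.b).Y.M) :=
  ⟨hz_tr t.IH (congrFun ht.hf0.1 1) (congrFun ht.hf0.2 1) (hy.qhs _ (.inl rfl) k hk),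
    hz_tr t.IT ht.tf0.1 ht.tf0.2 (hy.qhs _ (.inr rfl) k hk)⟩

omit hy ht in
theorem exists_cs (y : G75.YD κ lam) : ∃ cs, ∀ (S : Scene Lm) (t : TD y S) R c, t.OK R c →
    YC S.M t.h cs ∧ YC S.M t.b cs :=
  let ⟨c, h⟩ := Loc8.exists_yc y.M y.h
  let ⟨c', h'⟩ := Loc8.exists_yc y.M y.b
  ⟨max c c', fun _ t _ _ ht =>
    ⟨yc_tr t.IH (congrFun ht.hf0.1 1) (congrFun ht.hf0.2 1) (yc_mono h (le_max_left _ _)),
      yc_tr t.IT ht.tf0.1 ht.tf0.2 (yc_mono h' (le_max_right _ _))⟩⟩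

end Crest.Agent.X212.Yc4
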